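import Crest.Agent.X212.For74.Ins
import Crest.Agent.X212.Cob34.Xi
import Crest.Agent.X212.Nt66.Defs

/-!
# Row 212, NT-FOR (helper74): first order richness of the words at an abelian connection
-/

set_option autoImplicit false
set_option linter.unusedSectionVars false
noncomputable section
open scoped Manifold ContDiff Topology InnerProductSpace
open MeasureTheory Set Function Filter

namespace Crest.Agent.X212.For74
open An Wz78 Sob92
open Wrd81 (Tf SdIn AwIn LlIn wd)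
open Nd18 (vr)

variable {E : Type} [NormedAddCommGroup E] [NormedSpace ℝ E] [FiniteDimensional ℝ E]
  [MeasurableSpace E] [BorelSpace E]
  {HM : Type} [TopologicalSpace HM] {I : ModelWithCorners ℝ E HM} [I.Boundaryless]
  {M : Type} [TopologicalSpace M] [ChartedSpace HM M] [IsManifold I ∞ M]
  [MeasurableSpace M] [T2Space M] [BorelSpace M] [SecondCountableTopology M]
  {ι : Type} [Fintype ι] {lam : Type} [Fintype lam]

variable {B : Base M ι lam} {G : Geo I M ι lam} {Ω : Set M} {r : ℕ} (c : Cfg M ι lam r)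
  (a : M → Fm ι c.m.A)

/-- the value of a word along the line -/
def wv (F : Fr I M ι) (w : AW M) (s : ℝ) : M → c.m.A := (vr c (s • a) 0).aw F w

/-- the resolvent along the line -/
def rs (F : Fr I M ι) (U : ℝ → M → c.m.A) (s : ℝ) : M → c.m.A :=
  F.res (ln (c.m.adW c.W) (al a) s) (U s)

/-- the words on curvature seeds -/
def Ws (F : Fr I M ι) (Ω : Set M) : Set (ℝ → M → c.m.A) :=
  {U | ∃ f g h l, AwIn I Ω ⟨.cv f g h, l⟩ ∧ wv c a F ⟨.cv f g h, l⟩ = U}

variable {c a} {F : Fr I M ι}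

theorem wv_G (t : Sd M) (l : List (La M)) : wv c a F ⟨t, .G :: l⟩ = rs c a F (wv c a F ⟨t, l⟩) :=
  funext fun s => congrArg (fun A => F.res A (wv c a F ⟨t, l⟩ s)) (adW_s c.W a s)

theorem wv_ind {P : (ℝ → M → c.m.A) → Prop}
    (h0 : ∀ f g h, SdIn I Ω (.cv f g h) → P fun s x => ∑ t : ι × ι,
      (f x * F.D t.1 g x * F.D t.2 h x) • c.m.Fg F (c.m.addC c.W (s • a)) x t)
    (h1 : ∀ f, Tf I Ω f → ∀ U, P U → P fun s x => f x • U s x)
    (h2 : ∀ U, P U → P (rs c a F U)) : ∀ U ∈ Ws c a F Ω, P U := by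
  rintro _ ⟨f, g, h, l, ⟨k1, k2⟩, rfl⟩
  induction l with
  | nil =>
    convert h2 _ (h2 _ (h0 f g h k1)) using 1
    funext s
    simp only [rs, ← adW_s]
    rfl
  | cons t l ih =>
    have ih := ih k1 fun t k => k2 t (List.mem_cons_of_mem _ k)
    have ht := k2 t List.mem_cons_self
    cases t
    exacts [h1 _ ht _ ih, wv_G (c := c) (a := a) (F := F) _ l ▸ h2 _ ih]

variable (I M ι lam) in
/-- **FOR** -/
theorem for_ : Nt66.ForStmt I M ι lam := by
  intro r B G Ω c ξ a x₀ hB hG hF hΩ hc A hW _ h0 ha hp _ hN hx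
  have H := A.adm.ok
  have C := A.adm.conn
  have l := lnI hG hF C hW ha hp
  have X := xiI H A.rd hΩ hc
  have j1 : ∀ U ∈ Submodule.span ℝ (Ws c a G.F Ω), ∃ u', Jet G.F U u' := fun U hU => by
    induction hU using Submodule.span_induction with
    | mem U hU =>
      exact wv_ind (P := fun U => ∃ u', Jet G.F U u') (fun f g h k => seed lam B G c.m c.W a f g h hB hG
        H C (sm_cb ha) (k.1.mono (subset_univ _)) k.2.1.sm k.2.2.sm)
        (fun f hf _ ⟨_, k⟩ => ⟨_, k.mul (hf.cb G.F)⟩) (fun _ ⟨_, k⟩ => ⟨_, jet _ _ _ _ _ l k⟩) U hU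
    | zero => exact ⟨0, Jet.zero⟩
    | add _ _ _ _ h k => exact let ⟨_, h⟩ := h; let ⟨_, k⟩ := k; ⟨_, Jet.add h k⟩
    | smul t _ _ h => exact let ⟨_, h⟩ := h; ⟨_, h.smul t⟩
  have j2 : ∀ f, Tf I Ω f → ∀ U ∈ Submodule.span ℝ (Ws c a G.F Ω),
      (fun s x => f x • U s x) ∈ Submodule.span ℝ (Ws c a G.F Ω) := fun f hf U hU => by
    induction hU using Submodule.span_induction with
    | mem U hU =>
      obtain ⟨g, g', h, L, k, rfl⟩ := hU
      exact Submodule.subset_span ⟨g, g', h, .mul f :: L, ⟨k.1, k.2.cons hf⟩, rfl⟩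
    | zero => convert Submodule.zero_mem _ using 1; funext s x; simp
    | add _ _ _ _ h k => convert add_mem h k using 1; funext s x; simp
    | smul t _ _ h => convert Submodule.smul_mem _ t h using 1; funext s x; simp [smul_comm t]
  have j3 : ∀ U ∈ Submodule.span ℝ (Ws c a G.F Ω),
      rs c a G.F U ∈ Submodule.span ℝ (Ws c a G.F Ω) := fun U hU => by
    induction hU using Submodule.span_induction with
    | mem U hU =>
      obtain ⟨g, g', h, L, k, rfl⟩ := hU
      exact Submodule.subset_span ⟨g, g', h, .G :: L, ⟨k.1, k.2.cons trivial⟩, wv_G _ _⟩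
    | zero =>
      convert Submodule.zero_mem _ using 1
      exact funext fun s => Mp86.res_zero l.rh.bmp (l.mc_ln s)
    | add U U' hU hU' h k =>
      convert add_mem h k using 1
      exact funext fun s => Mp86.res_add l.rh.bmp (l.mc_ln s) 
        ⟨_, (l.re_ln s ((j1 U hU).choose_spec.cb s)).1⟩
        ⟨_, (l.re_ln s ((j1 U' hU').choose_spec.cb s)).1⟩
    | smul t _ _ h =>
      convert Submodule.smul_mem _ t h using 1
      exact funext fun s => Mp86.res_smul l.rh.bmp (l.mc_ln s) t _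
  have j4 : ∀ U ∈ Submodule.span ℝ (Ws c a G.F Ω),
      (∀ s x, U s x ∈ c.m.gS x) ∧ ∀ x, U 0 x ∈ Submodule.span ℝ {ξ x} := fun U hU => by
    induction hU using Submodule.span_induction with
    | mem U hU =>
      refine wv_ind (P := fun U => (∀ s x, U s x ∈ c.m.gS x) ∧ ∀ x, U 0 x ∈ Submodule.span ℝ {ξ x})
        (fun f g h k => ⟨fun s x => Submodule.sum_mem _ fun t _ =>
          Submodule.smul_mem _ _ (Fg_mem _ t), fun x => Submodule.sum_mem _ fun t _ => ?_⟩)
        (fun f _ U k => ⟨fun s x => Submodule.smul_mem _ _ (k.1 s x),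
          fun x => Submodule.smul_mem _ _ (k.2 x)⟩) (fun U k => ⟨fun s x => ?_, fun x => ?_⟩) U hU
      · by_cases hx : x ∈ Ω
        · rw [addC_0, A.rd.Fg_eq hB hG H C hx]
          exact Submodule.smul_mem _ _ (Submodule.smul_mem _ _ (Submodule.mem_span_singleton_self _))
        · simp [image_eq_zero_of_notMem_tsupport fun e => hx (k.1.sub e)]
      · have sg := Std94.sm_pg hB H
        have C' := conn_s H C (sm_cb ha) hp s
        rw [rs, ← adW_s, ← (Wrd81.rh_conn hG hF.choose_spec C' (cb_s hW ha s)).2.res_prj sg inner_pg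
          pg_pg (pg_par H C' sg) (fun x => pg_of_mem (k.1 s x)) x]
        exact pg_mem x _
      · rw [rs, ln_zero]
        by_cases hx : x ∈ Ω
        · exact Submodule.mem_span_singleton.2 ((Cob34.res_xi hB hG l.rh.bmp hΩ A (s := U 0) (fun y _ =>
            (Submodule.mem_span_singleton.1 (k.2 y)).imp fun _ => Eq.symm) x hx).imp fun _ => Eq.symm)
        · rw [l.rh.res_off hΩ (fun y hy => by simpa [X.off y hy] using k.2 y) x hx]
          exact zero_mem _
    | zero => exact ⟨fun _ _ => zero_mem _, fun _ => zero_mem _⟩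
    | add _ _ _ _ h k => exact ⟨fun s x => add_mem (h.1 s x) (k.1 s x), fun x => add_mem (h.2 x) (k.2 x)⟩
    | smul t _ _ h =>
      exact ⟨fun s x => Submodule.smul_mem _ t (h.1 s x), fun x => Submodule.smul_mem _ t (h.2 x)⟩
  let 𝒥 : Submodule ℝ ((M → c.m.A) × (M → c.m.A)) :=
    { carrier := {j | ∃ U ∈ Submodule.span ℝ (Ws c a G.F Ω), U 0 = j.1 ∧ Jet G.F U j.2}
      add_mem' := fun ⟨_, h1, h2, h3⟩ ⟨_, k1, k2, k3⟩ =>
        ⟨_, add_mem h1 k1, congrArg₂ (· + ·) h2 k2, Jet.add h3 k3⟩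
      zero_mem' := ⟨0, zero_mem _, rfl, Jet.zero⟩
      smul_mem' := fun t _ ⟨_, h1, h2, h3⟩ =>
        ⟨_, Submodule.smul_mem _ t h1, congrArg (t • ·) h2, h3.smul t⟩ }
  refine (abs I M ι _ G.F _ _ Ω ξ c.m.gS 𝒥 l X ⟨fun j ⟨U, _, h2, h3⟩ => ⟨h2 ▸ h3.cb 0, h3.cb'⟩,
    fun j ⟨U, h1, h2, _⟩ x => ?_, fun j ⟨U, h1, _, h3⟩ x => h3.mem fun s => (j4 U h1).1 s x,
    Qa50.rd_mem A.rd, fun f hf j ⟨U, h1, h2, h3⟩ => ⟨_, j2 f hf U h1, h2 ▸ rfl,
      h3.mul (hf.cb G.F)⟩, fun j ⟨U, h1, h2, h3⟩ => ⟨_, j3 U h1, by rw [rs, ln_zero, h2],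
      h2 ▸ jet _ _ _ _ _ l h3⟩, ?_⟩).elim (fun k => ?_) fun k => (hN k).elim
  · exact (Submodule.mem_span_singleton.1 ((j4 U h1).2 x)).imp fun b e => h2 ▸ e.symm
  · obtain ⟨f, g, h, k, x, hx, k0⟩ := seed_ne hB hG hF A.adm hW hΩ h0
    have m := Submodule.subset_span (R := ℝ) (s := Ws c a G.F Ω)
      ⟨f, g, h, [], ⟨k, Wrd81.llIn_nil⟩, rfl⟩
    exact ⟨(_, _), ⟨_, m, rfl, (j1 _ m).choose_spec⟩, x, hx, fun e => k0
      ((congrFun (aw_0 G.F a f g h []) x).symm.trans e)⟩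
  · obtain ⟨j, ⟨U, h1, h2, h3⟩, k1, k2⟩ := k x₀ hx
    obtain ⟨N, t, w, rfl⟩ := Submodule.mem_span_set'.1 h1
    choose f g h L p1 p2 using fun i => (w i).2
    refine ⟨N, fun i => ⟨.cv (f i) (g i) (h i), L i⟩, t, j.2 x₀, p1, ?_, ?_,
      h3.mem fun s => (j4 _ h1).1 s x₀, k2⟩
    · have := congrFun (h2.trans k1) x₀
      simpa only [Finset.sum_apply, Pi.smul_apply, ← p2, wv, aw_0, Pi.zero_apply] using this
    · refine (h3.hasDerivAt x₀).congr_of_eventuallyEq (.of_forall fun s => ?_)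
      simp only [Finset.sum_apply, ← p2]
      rfl

end Crest.Agent.X212.For74
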