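import Crest.Agent.X212.For32.Jet

/-!
# Row 212, NT-FOR (helper74): the dichotomy for spaces of first order jets of words
-/

set_option autoImplicit false
set_option linter.unusedSectionVars false
noncomputable section
open scoped Manifold ContDiff Topology InnerProductSpace
open MeasureTheory Set Function Filter

namespace Crest.Agent.X212.For74
open An Wz78 Sob92
open Wrd81 (Tf Fam RH sm_smul lap1 lap1_smul exists_tf)

variable {E : Type} [NormedAddCommGroup E] [NormedSpace ℝ E] [FiniteDimensional ℝ E]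
  [MeasurableSpace E] [BorelSpace E]
  {HM : Type} [TopologicalSpace HM] {I : ModelWithCorners ℝ E HM} [I.Boundaryless]
  {M : Type} [TopologicalSpace M] [ChartedSpace HM M] [IsManifold I ∞ M]
  [MeasurableSpace M] [T2Space M] [BorelSpace M] [SecondCountableTopology M]
  {ι : Type} [Fintype ι]
  {V : Type} [NormedAddCommGroup V] [InnerProductSpace ℝ V] [FiniteDimensional ℝ V]
  {F : Fr I M ι} {A α : ι → M → V →L[ℝ] V} {Ω : Set M} {ξ : M → V}

/-- a family of words which is not zero on a connected piece has a non-zero value everywhere -/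
theorem spread {𝒲 : Set (M → V)} (c : Fam Ω Ω F A 𝒲) (h : RH F A) (hΩ : IsPreconnected Ω)
    {w : M → V} (hw : w ∈ 𝒲) {y : M} (hy : y ∈ Ω) (h0 : w y ≠ 0) {x : M} (hx : x ∈ Ω) :
    ∃ w' ∈ 𝒲, w' x ≠ 0 := by
  have := FiniteDimensional.complete ℝ V
  obtain ⟨π, p⟩ := c.exists_prj h
  obtain ⟨S, hS⟩ := h.sup
  obtain ⟨f, hf, f1⟩ := exists_tf (I := I) (c.op.mem_nhds hx)
  by_contra! k
  refine p.ne_zero' hΩ hw hy hy h0 hx (ContinuousLinearMap.ext fun v => ?_)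
  obtain ⟨hu, h1⟩ := Wrd81.mem_Ap.1 (p.ap 4 _ (Wrd81.smul_mem_tst hf.sm hf.hcs
    (p.sm.clm_apply (contMDiff_const (c := v)))) ((tsupport_smul_subset_left _ _).trans hf.sub)
    fun z => by rw [map_smul, p.idem])
  have h2 := Wrd81.map_cl (U := ⊥) (by simp) (F.ev 4 (triv M V) x) (by
    rintro _ ⟨u, ⟨g, -, w', h3, e⟩, rfl⟩
    exact (congrFun (val_toH hS le_rfl u) x).trans (by simp [e, k w' h3])) h1
  simpa [f1] using (congrFun (val_toH hS le_rfl ⟨_, hu⟩) x).symm.trans h2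

theorem sm_cb {N : Type} [NormedAddCommGroup N] [NormedSpace ℝ N] {u : M → N} (h : F.Cb u) :
    Sm I u := h.choose_spec.1

theorem Ln.rh (h : Ln F A α) : RH F A := Wrd81.rh_of_tame h.tame.choose_spec h.cA h.sA h.pA

theorem L1_zero : L1 F A α 0 = 0 := funext fun x => by
  have h : ∀ a, nab I F.e A a (fun _ => (0 : V)) x = 0 := fun a => by simp [nab, dv_const]
  simp [L1, ← Pi.zero_def, show ∀ a, nab I F.e A a 0 x = 0 from h]

/-- the rank one map `w ↦ ⟪u, w⟫ v / 16` -/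
def bt : V →L[ℝ] V →L[ℝ] V →L[ℝ] V :=
  ContinuousLinearMap.smulRightL ℝ V V ∘L ((1 / 16 : ℝ) • innerSL ℝ)

theorem bt_apply (u v w : V) : bt u v w = (1 / 16 * ⟪u, w⟫_ℝ) • v := rfl

/-- the coefficient on the line -/
def co (ξ u : M → V) (x : M) : ℝ := 1 / 16 * ⟪ξ x, u x⟫_ℝ

/-- the projector onto the normal bundle of the line -/
def Nm (Ω : Set M) (ξ : M → V) (x : M) : V →L[ℝ] V :=
  Ω.indicator (1 : M → ℝ) x • (1 : V →L[ℝ] V) - bt (ξ x) (ξ x)

theorem Nm_apply {x : M} (hx : x ∈ Ω) (v : V) :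
    Nm Ω ξ x v = v - (1 / 16 * ⟪ξ x, v⟫_ℝ) • ξ x := by simp [Nm, hx, bt_apply]

namespace Xi
variable (h : Xi F A Ω ξ)
include h

theorem N_off {x : M} (hx : x ∉ Ω) : Nm Ω ξ x = 0 := by simp [Nm, hx, h.off x hx]

theorem co_smul {x : M} (hx : x ∈ Ω) (b : ℝ) : 1 / 16 * ⟪ξ x, b • ξ x⟫_ℝ = b := by
  rw [real_inner_smul_right, real_inner_self_eq_norm_sq, h.nrm x hx]; ring

theorem N_xi (x : M) (b : ℝ) : Nm Ω ξ x (b • ξ x) = 0 := by
  by_cases hx : x ∈ Ω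
  · rw [Nm_apply hx, h.co_smul hx, sub_self]
  · simp [h.N_off hx]

theorem inner_N {x : M} (hx : x ∈ Ω) (v : V) : ⟪Nm Ω ξ x v, ξ x⟫_ℝ = 0 := by
  rw [Nm_apply hx, inner_sub_left, real_inner_smul_left, real_inner_self_eq_norm_sq, h.nrm x hx,
    real_inner_comm]
  ring

theorem sm_bt : Sm I fun x => bt (ξ x) (ξ x) := (bt.contMDiff.comp h.sm).clm_apply h.sm

theorem sm_N : Sm I (Nm Ω ξ) := (sm_smul (Wrd81.sm_ind h.cl) contMDiff_const).sub h.sm_bt

theorem sm_co {u : M → V} (hu : Sm I u) : Sm I (co ξ u) :=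
  contMDiff_const.mul fun x => SA.inner (h.sm x) (hu x)

theorem val_eq {u : M → V} (hu : ∀ x, ∃ b : ℝ, u x = b • ξ x) (x : M) : u x = co ξ u x • ξ x := by
  obtain ⟨b, e⟩ := hu x
  by_cases hx : x ∈ Ω
  · rw [co, e, h.co_smul hx]
  · simp [e, h.off x hx]

theorem bd_N : ∃ C, ∀ x, ‖Nm Ω ξ x‖ ≤ C := ⟨1, fun x => Wrd81.norm_prj_le (fun v w => by
    by_cases hx : x ∈ Ω
    · simp only [Nm_apply hx, inner_sub_left, inner_sub_right, real_inner_smul_left,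
        real_inner_smul_right, real_inner_comm (ξ x) v]
      ring
    · simp [h.N_off hx]) fun v => by
  by_cases hx : x ∈ Ω
  · rw [Nm_apply hx (Nm Ω ξ x v), real_inner_comm, h.inner_N hx]; simp
  · simp [h.N_off hx]⟩

theorem itw_N (hA : ∀ a x, Skew (A a x)) (x : M) : Eqv71.Itw I F.e A A (Nm Ω ξ) x := fun a => by
  have e : dv I (F.e a) (fun y => Ω.indicator (1 : M → ℝ) y • (1 : V →L[ℝ] V)) x = 0 := by
    rw [dv_congr (v := fun _ => Ω.indicator (1 : M → ℝ) x • (1 : V →L[ℝ] V))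
      ((Wrd81.ind_ev h.cl x).mono fun z hz => by rw [hz]), dv_const]; rfl
  unfold Nm
  rw [dv_sub' (sm_smul (Wrd81.sm_ind h.cl) contMDiff_const x) (h.sm_bt x), e,
    dv_bil bt (SA.md (h.sm x)) (SA.md (h.sm x)), eq_neg_of_add_eq_zero_left (h.par a x)]
  refine ContinuousLinearMap.ext fun η => ?_
  simp only [add_apply, sub_apply, zero_apply, smul_apply, one_apply_eq_self,
    ContinuousLinearMap.comp_apply, bt_apply, inner_neg_left, hA a x (ξ x) η, map_smul, map_sub,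
    neg_neg, smul_neg]
  abel

theorem isRes_N (l : Ln F A α) {s u : M → V} (k : F.IsRes A s u) :
    F.IsRes A (fun x => Nm Ω ξ x (s x)) fun x => Nm Ω ξ x (u x) :=
  Mp86.isRes_map l.rh.mc.sm h.sm_N h.bd_N (h.itw_N l.sA) k

/-- the variation of the Laplacian on the line at a zero of the coefficient -/
theorem L1_line (l : Ln F A α) {φ : M → ℝ} (hφ : Sm I φ) {x : M} (h0 : φ x = 0) :
    L1 F A α (fun y => φ y • ξ y) x = -((2 : ℝ) • ∑ a, F.D a φ x • α a x (ξ x)) := by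
  have e : ∀ a, (fun y => α a y (φ y • ξ y)) = fun y => φ y • α a y (ξ y) :=
    fun a => funext fun y => map_smul _ _ _
  simp only [L1, e, nab_smul _ (hφ x) (h.sm x), h0, zero_smul, add_zero, map_smul, smul_zero, map_zero,
    fun a => nab_smul (e := F.e) (A := A) a (hφ x) (SA.app (sm_cb (l.cα a) x) (h.sm x)), two_smul,
    Finset.sum_add_distrib, Pre.D_def]

/-- the scalar Laplacian on the line -/
theorem isRes_line (l : Ln F A α) {φ : M → ℝ} (hφ : Tf I Ω φ) : F.IsRes A (fun y =>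
    (φ y - ∑ a, (F.D a (F.D a φ) y + F.dv a y * F.D a φ y)) • ξ y) fun y => φ y • ξ y := by
  have z : ∀ a, Wrd81.cov F.toPre A a ξ = 0 := fun a => funext (h.par a)
  have z' : ∀ a x, Wrd81.cov F.toPre A a 0 x = 0 := fun a x => by
    simp [Wrd81.cov, Pre.D_def, Pi.zero_def, dv_const]
  refine ⟨sm_smul hφ.sm h.sm,
    (sm_smul hφ.sm h.sm).continuous.bounded_above_of_compact_support hφ.hcs.smul_right, fun x => ?_⟩
  refine (congrFun (Wrd81.lap1_eq F A fun y => φ y • ξ y) x).symm.trans ?_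
  rw [lap1_smul F l.rh.mc.sm hφ.sm h.sm]
  simp [lap1, z, z', sub_smul]

end Xi

section main
variable {S : M → Submodule ℝ V} {𝒥 : Submodule ℝ ((M → V) × (M → V))} (l : Ln F A α)
  (h : Xi F A Ω ξ) (p : Prs F A α Ω ξ S 𝒥)
include l h p

theorem val_ne {x : M} (hx : x ∈ Ω) : ∃ j ∈ 𝒥, co ξ j.1 x ≠ 0 := by
  obtain ⟨j, hj, y, hy, h0⟩ := p.ne
  obtain ⟨_, ⟨k, hk, rfl⟩, k0⟩ := spread (𝒲 := Prod.fst '' (𝒥 : Set _)) ⟨h.cl, h.cl.2, Subset.rfl,
    by simp, by rintro _ ⟨j, hj, rfl⟩; exact sm_cb (p.cb j hj).1,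
    by rintro f hf _ ⟨j, hj, rfl⟩; exact ⟨_, p.mul f hf j hj, rfl⟩,
    by rintro _ ⟨j, hj, rfl⟩; exact ⟨_, p.res j hj, rfl⟩⟩ l.rh h.pc ⟨j, hj, rfl⟩ hy h0 hx
  exact ⟨k, hk, fun e => k0 (by rw [h.val_eq (p.line k hk), e, zero_smul])⟩

theorem fam_N : Fam Ω Ω F A {n | ∃ j ∈ 𝒥, j.1 = 0 ∧ n = fun x => Nm Ω ξ x (j.2 x)} := by
  refine ⟨h.cl, h.cl.2, Subset.rfl, by simp, ?_, ?_, ?_⟩
  · rintro _ ⟨j, hj, -, rfl⟩
    exact h.sm_N.clm_apply (sm_cb (p.cb j hj).2)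
  · rintro f hf _ ⟨j, hj, h0, rfl⟩
    exact ⟨_, p.mul f hf j hj, by simp [h0, Pi.zero_def], by simp⟩
  · rintro _ ⟨j, hj, h0, rfl⟩
    have z := Mp86.res_zero (F := F) l.rh.bmp l.rh.mc
    refine ⟨_, p.res j hj, by rw [h0, z], ?_⟩
    simp only [h0, z, L1_zero, Pi.zero_apply, sub_zero]
    exact Mp86.res_eq l.rh.bmp l.rh.mc (h.isRes_N l (l.re (p.cb j hj).2).1)

/-- the normal parts of the derivatives are multiples of one section -/
theorem exists_eta (h0 : ∀ j ∈ 𝒥, j.1 = 0 → ∀ y ∈ Ω, Nm Ω ξ y (j.2 y) = 0) : ∃ η : M → V,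
    Sm I η ∧ (∀ x ∈ Ω, η x ∈ S x ∧ ⟪η x, ξ x⟫_ℝ = 0) ∧ (∀ x ∉ Ω, η x = 0) ∧
      ∀ j ∈ 𝒥, ∀ x, Nm Ω ξ x (j.2 x) = co ξ j.1 x • η x := by
  classical
  have key : ∀ j ∈ 𝒥, ∀ k ∈ 𝒥, ∀ y ∈ Ω,
      co ξ k.1 y • Nm Ω ξ y (j.2 y) = co ξ j.1 y • Nm Ω ξ y (k.2 y) := fun j hj k hk y hy => by
    obtain ⟨f, hf, f1⟩ := exists_tf (I := I) (h.cl.2.mem_nhds hy)
    have := h0 _ (sub_mem (p.mul _ (hf.mul (h.sm_co (sm_cb (p.cb k hk).1))) j hj)
      (p.mul _ (hf.mul (h.sm_co (sm_cb (p.cb j hj).1))) k hk)) (funext fun x => by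
        simp only [Prod.fst_sub, Pi.sub_apply, Pi.zero_apply]
        rw [h.val_eq (p.line j hj) x, h.val_eq (p.line k hk) x, smul_smul, smul_smul, ← sub_smul,
          show ∀ a b c : ℝ, a * b * c - c * b * a = 0 from fun _ _ _ => by ring, zero_smul]) y hy
    simpa [f1, sub_eq_zero] using this
  choose J hJ J0 using fun x hx => val_ne l h p (x := x) hx
  let η : M → V := fun x =>
    if hx : x ∈ Ω then (co ξ (J x hx).1 x)⁻¹ • Nm Ω ξ x ((J x hx).2 x) else 0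
  have e : ∀ j ∈ 𝒥, ∀ x, Nm Ω ξ x (j.2 x) = co ξ j.1 x • η x := fun j hj x => by
    by_cases hx : x ∈ Ω
    · rw [show η x = _ from dif_pos hx, smul_comm, ← key j hj _ (hJ x hx) x hx, smul_smul,
        inv_mul_cancel₀ (J0 x hx), one_smul]
    · simp [η, hx, h.N_off hx]
  refine ⟨η, fun x => ?_, fun x hx => ?_, fun x hx => dif_neg hx, e⟩
  · by_cases hx : x ∈ Ω
    · have s1 := h.sm_co (sm_cb (p.cb _ (hJ x hx)).1)
      refine (SA.smul ((s1 x).inv₀ (J0 x hx))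
        (h.sm_N.clm_apply (sm_cb (p.cb _ (hJ x hx)).2) x)).congr_of_eventuallyEq ?_
      filter_upwards [s1.continuous.continuousAt.eventually_ne (J0 x hx)] with y hy
      rw [e _ (hJ x hx), smul_smul, inv_mul_cancel₀ hy, one_smul]
    · refine (contMDiffAt_const (c := 0)).congr_of_eventuallyEq ?_
      filter_upwards [h.cl.1.isOpen_compl.mem_nhds hx] with y hy
      exact dif_neg hy
  · rw [show η x = _ from dif_pos hx]
    refine ⟨Submodule.smul_mem _ _ ?_, by rw [real_inner_smul_left, h.inner_N hx, mul_zero]⟩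
    rw [Nm_apply hx]
    exact sub_mem (p.mem _ (hJ x hx) x) (Submodule.smul_mem _ _ (p.xi x))

/-- the equation of the section -/
theorem eta_eq {η : M → V} (hη : Sm I η) (z : ∀ x ∉ Ω, η x = 0)
    (e : ∀ j ∈ 𝒥, ∀ x, Nm Ω ξ x (j.2 x) = co ξ j.1 x • η x) {x : M} (hx : x ∈ Ω) (i : ι) :
    nab I F.e A i η x + α i x (ξ x) = 0 := by
  obtain ⟨j, hj, j0⟩ := val_ne l h p hx
  have s1 := h.sm_co (sm_cb (p.cb _ hj).1)
  have hO : Ω ∩ {y | co ξ j.1 y ≠ 0} ∈ 𝓝 x :=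
    inter_mem (h.cl.2.mem_nhds hx) (s1.continuous.continuousAt.eventually_ne j0)
  obtain ⟨g, hg, g1⟩ := Wrd81.exists_tf_D F hO i
  obtain ⟨f, hf, f1⟩ := exists_tf (I := I) hO
  obtain ⟨φ, hφ, φ0, φ1⟩ : ∃ φ, Tf I (Ω ∩ {y | co ξ j.1 y ≠ 0}) φ ∧ φ x = 0 ∧
      ∀ a, F.D a φ x = F.P i a x := by
    have s2 : Sm I fun y => g y - g x := hg.sm.sub contMDiff_const
    refine ⟨_, hf.mul s2, by simp, fun a => ?_⟩
    have := dv_smul (e := F.e a) (SA.md (s2 x)) (SA.md (hf.sm x))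
    rw [dv_sub' (hg.sm x) contMDiffAt_const, dv_const] at this
    simpa [f1, ← g1, Pre.D_def] using this
  set ψ := fun y => φ y - ∑ a, (F.D a (F.D a φ) y + F.dv a y * F.D a φ y) with hψ
  have sψ : Sm I ψ := hφ.sm.sub (contMDiff_finsetSum fun a _ =>
    (F.sm_D (F.sm_D hφ.sm a) a).add ((F.dv_sm a).mul (F.sm_D hφ.sm a)))
  have tψ : tsupport ψ ⊆ tsupport φ := closure_minimal (fun y hy => by_contra fun k => hy (by
    have k1 := fun a => mt (fun t => F.tsupport_D φ a t) k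
    have k2 := fun a => mt (fun t => F.tsupport_D (F.D a φ) a t) (k1 a)
    simp [hψ, image_eq_zero_of_notMem_tsupport k, fun a => image_eq_zero_of_notMem_tsupport (k1 a),
      fun a => image_eq_zero_of_notMem_tsupport (k2 a)])) (isClosed_tsupport _)
  have t1 : tsupport (fun y => (co ξ j.1 y)⁻¹ * ψ y) ⊆ tsupport φ :=
    tsupport_mul_subset_right.trans tψ
  have hq : Tf I Ω fun y => (co ξ j.1 y)⁻¹ * ψ y := ⟨contMDiff_of_tsupport fun y hy =>
    ((s1 y).inv₀ (hφ.sub (t1 hy)).2).mul (sψ y), hφ.hcs.of_isClosed_subset (isClosed_tsupport _) t1,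
    t1.trans (hφ.sub.trans inter_subset_left)⟩
  have e1 : (fun y => ((co ξ j.1 y)⁻¹ * ψ y) • j.1 y) = fun y => ψ y • ξ y := funext fun y => by
    rw [h.val_eq (p.line j hj) y, smul_smul]
    by_cases hy : y ∈ tsupport ψ
    · rw [mul_right_comm, inv_mul_cancel₀ (hφ.sub (tψ hy)).2, one_mul]
    · simp [image_eq_zero_of_notMem_tsupport hy]
  have m1 := p.mul _ hq j hj
  have m2 := p.res _ m1
  have c : ∀ (b : M → ℝ) y, co ξ (fun y => b y • ξ y) y • η y = b y • η y := fun b y => by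
    by_cases hy : y ∈ Ω
    · rw [co, h.co_smul hy]
    · simp [z y hy]
  have e2 : F.res A (fun y => ψ y • ξ y) = fun y => φ y • ξ y :=
    Mp86.res_eq l.rh.bmp l.rh.mc (h.isRes_line l (hφ.mono inter_subset_left))
  have a1 := e _ m1 x
  have a2 := e _ m2
  have c1 := (p.cb _ m1).2
  have c2 := (p.cb _ m2).1
  simp only [e1, e2, c] at a1 a2 c1 c2
  have r := (h.isRes_N l (l.re (Cb_sub c1 (l.cb_L1 c2))).1).2.2 x
  erw [funext a2] at r
  replace r := (congrFun (Wrd81.lap1_eq F A fun y => φ y • η y) x).trans r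
  have n : Nm Ω ξ x (α i x (ξ x)) = α i x (ξ x) := by
    rw [Nm_apply hx, real_inner_comm, (l.sα i x).self]; simp
  have b1 : ∑ a, F.P i a x • α a x (ξ x) = α i x (ξ x) := by
    rw [← l.pα i x]; simp
  have b2 : ∑ a, F.P i a x • Wrd81.cov F.toPre A a η x = nab I F.e A i η x := by
    simp only [Wrd81.cov, smul_add, Finset.sum_add_distrib, Wrd81.P_D]
    rw [nab, ← l.pA i x]; simp [Pre.D_def]
  simp only [lap1_smul F l.rh.mc.sm hφ.sm hη, Pi.sub_apply, map_sub, a1,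
    h.L1_line l hφ.sm φ0] at r
  simp only [φ1, b1, b2, map_neg, map_smul, n, φ0, zero_smul, zero_sub, hψ, neg_smul] at r
  refine smul_right_injective V (two_ne_zero (α := ℝ)) ?_
  simp only [smul_add, smul_zero]
  linear_combination (norm := module) -r

end main

variable (I M ι V) in
/-- **ABS** -/
theorem abs : AbsStmt I M ι V := fun F A α Ω ξ S 𝒥 l h p => by
  by_cases hc : ∃ j ∈ 𝒥, j.1 = 0 ∧ ∃ y ∈ Ω, Nm Ω ξ y (j.2 y) ≠ 0
  · obtain ⟨j, hj, h0, y, hy, h1⟩ := hc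
    refine .inl fun x hx => ?_
    obtain ⟨_, ⟨k, hk, k0, rfl⟩, k1⟩ := spread (fam_N l h p) l.rh h.pc ⟨j, hj, h0, rfl⟩ hy h1 hx
    exact ⟨k, hk, k0, fun t e => k1 ((congrArg _ e).trans (h.N_xi x t))⟩
  · push Not at hc
    obtain ⟨η, h1, h2, h3, h4⟩ := exists_eta l h p hc
    exact .inr ⟨η, fun x hx => ⟨h1 x, (h2 x hx).1, (h2 x hx).2, eta_eq l h p h1 h3 h4 hx⟩⟩

end Crest.Agent.X212.For74
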