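import Crest.Agent.X212.Wrd81.Adj
import Crest.Agent.X212.Mon62.RE

/-!
# Row 212, NT-FOR (helper74): jets of words along a line of connections; the three parts
-/

set_option autoImplicit false
set_option linter.unusedSectionVars false
noncomputable section
open scoped Manifold ContDiff Topology InnerProductSpace
open MeasureTheory Set Function Filter

namespace Crest.Agent.X212.For74
open An Wz78
open Wrd81 (Tf)

variable {E : Type} [NormedAddCommGroup E] [NormedSpace ℝ E] [FiniteDimensional ℝ E]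
  [MeasurableSpace E] [BorelSpace E]
  {HM : Type} [TopologicalSpace HM] {I : ModelWithCorners ℝ E HM} [I.Boundaryless]
  {M : Type} [TopologicalSpace M] [ChartedSpace HM M] [IsManifold I ∞ M]
  [MeasurableSpace M] [T2Space M] [BorelSpace M] [SecondCountableTopology M]
  {ι : Type} [Fintype ι]
  {V : Type} [NormedAddCommGroup V] [InnerProductSpace ℝ V] [FiniteDimensional ℝ V]

/-- the first variation of `∇*∇` along `α` -/
def L1 (F : Fr I M ι) (A α : ι → M → V →L[ℝ] V) (u : M → V) : M → V := fun x =>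
  -∑ a, (α a x (nab I F.e A a u x) + nab I F.e A a (fun y => α a y (u y)) x +
    F.dv a x • α a x (u x))

/-- the line of connections -/
def ln (A α : ι → M → V →L[ℝ] V) (s : ℝ) : ι → M → V →L[ℝ] V := fun a x => A a x + s • α a x

/-- a family of `Cb` sections with a uniform first order expansion at `0` -/
structure Jet (F : Fr I M ι) (u : ℝ → M → V) (u' : M → V) : Prop where
  cb : ∀ s, F.Cb (u s)
  cb' : F.Cb u'
  est : ∃ C, ∀ s : ℝ, |s| ≤ 1 → ∀ x, ‖u s x - u 0 x - s • u' x‖ ≤ C * s ^ 2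

/-- a bounded metric connection and a bounded skew one-form, in bounded geometry -/
structure Ln (F : Fr I M ι) (A α : ι → M → V →L[ℝ] V) : Prop where
  tame : ∃ C, F.Tame C
  cA : ∀ a, F.Cb (A a)
  sA : ∀ a x, Skew (A a x)
  pA : ∀ a x, ∑ b, F.P a b x • A b x = A a x
  cα : ∀ a, F.Cb (α a)
  sα : ∀ a x, Skew (α a x)
  pα : ∀ a x, ∑ b, F.P a b x • α b x = α a x

/-- a parallel line over the connected piece `Ω` -/
structure Xi (F : Fr I M ι) (A : ι → M → V →L[ℝ] V) (Ω : Set M) (ξ : M → V) : Prop where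
  cl : IsClopen Ω
  pc : IsPreconnected Ω
  sm : Sm I ξ
  nrm : ∀ x ∈ Ω, ‖ξ x‖ ^ 2 = 16
  off : ∀ x ∉ Ω, ξ x = 0
  par : ∀ a x, nab I F.e A a ξ x = 0

/-- a space of pairs (value, derivative) closed under the letters -/
structure Prs (F : Fr I M ι) (A α : ι → M → V →L[ℝ] V) (Ω : Set M) (ξ : M → V)
    (S : M → Submodule ℝ V) (𝒥 : Submodule ℝ ((M → V) × (M → V))) : Prop where
  cb : ∀ j ∈ 𝒥, F.Cb j.1 ∧ F.Cb j.2
  line : ∀ j ∈ 𝒥, ∀ x, ∃ b : ℝ, j.1 x = b • ξ x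
  mem : ∀ j ∈ 𝒥, ∀ x, j.2 x ∈ S x
  xi : ∀ x, ξ x ∈ S x
  mul : ∀ f, Tf I Ω f → ∀ j ∈ 𝒥, ((fun x => f x • j.1 x), fun x => f x • j.2 x) ∈ 𝒥
  res : ∀ j ∈ 𝒥, (F.res A j.1, F.res A fun x => j.2 x - L1 F A α (F.res A j.1) x) ∈ 𝒥
  ne : ∃ j ∈ 𝒥, ∃ x ∈ Ω, j.1 x ≠ 0

variable (I M ι V)

/-- **JET**: the derivative of the resolvent -/
def JetStmt : Prop := ∀ (F : Fr I M ι) (A α : ι → M → V →L[ℝ] V) (u : ℝ → M → V) (u' : M → V),
  Ln F A α → Jet F u u' → Jet F (fun s => F.res (ln A α s) (u s))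
    (F.res A fun x => u' x - L1 F A α (F.res A (u 0)) x)

/-- **ABS**: the dichotomy -/
def AbsStmt : Prop := ∀ (F : Fr I M ι) (A α : ι → M → V →L[ℝ] V) (Ω : Set M) (ξ : M → V)
  (S : M → Submodule ℝ V) (𝒥 : Submodule ℝ ((M → V) × (M → V))), Ln F A α → Xi F A Ω ξ →
  Prs F A α Ω ξ S 𝒥 → (∀ x₀ ∈ Ω, ∃ j ∈ 𝒥, j.1 = 0 ∧ ∀ t : ℝ, j.2 x₀ ≠ t • ξ x₀) ∨
    ∃ η : M → V, ∀ x ∈ Ω, SA I η x ∧ η x ∈ S x ∧ ⟪η x, ξ x⟫_ℝ = 0 ∧
      ∀ i, nab I F.e A i η x + α i x (ξ x) = 0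

variable (lam : Type) [Fintype lam] in
/-- **SEED**: the jet of the right hand side of a seed -/
def SeedStmt : Prop := ∀ (B : Base M ι lam) (G : Geo I M ι lam) (m : Md M ι lam) (W : m.Cn)
  (a : M → Fm ι m.A) (f g h : M → ℝ), B.OK I → G.OK B → m.OK I B → m.IsConn B G W → Sm I a →
  Tf I univ f → Sm I g → Sm I h → ∃ u' : M → m.A, Jet G.F (fun s x => ∑ t : ι × ι,
    (f x * G.F.D t.1 g x * G.F.D t.2 h x) • m.Fg G.F (m.addC W (s • a)) x t) u'

end Crest.Agent.X212.For74
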