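import Crest.Agent.X212.For74.Abs
import Crest.Agent.X212.Qa50.Add
import Crest.Agent.X212.Spn45.Aff

/-!
# Row 212, NT-FOR (helper74): the instances at an abelian connection
-/

set_option autoImplicit false
set_option linter.unusedSectionVars false
noncomputable section
open scoped Manifold ContDiff Topology InnerProductSpace
open MeasureTheory Set Function Filter

namespace Crest.Agent.X212.For74
open An Wz78 Sob92
open Wrd81 (Tf SdIn wd)
open Nd18 (vr)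

variable {E : Type} [NormedAddCommGroup E] [NormedSpace ℝ E] [FiniteDimensional ℝ E]
  [MeasurableSpace E] [BorelSpace E]
  {HM : Type} [TopologicalSpace HM] {I : ModelWithCorners ℝ E HM} [I.Boundaryless]
  {M : Type} [TopologicalSpace M] [ChartedSpace HM M] [IsManifold I ∞ M]
  [MeasurableSpace M] [T2Space M] [BorelSpace M] [SecondCountableTopology M]
  {ι : Type} [Fintype ι] {lam : Type} [Fintype lam] {B : Base M ι lam} {G : Geo I M ι lam}
  {m : Md M ι lam} {W : m.Cn} {a : M → Fm ι m.A} {Ω : Set M}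

/-- the one-form acting on endomorphisms -/
def al (a : M → Fm ι m.A) : ι → M → En (Fin m.N × Fin m.N) := fun i x => adc (opL (a x i))

theorem adW_s (W : m.Cn) (a : M → Fm ι m.A) (s : ℝ) :
    m.adW (m.addC W (s • a)) = ln (m.adW W) (al a) s := funext₂ fun i x => by
  simp only [Md.adW, Md.addC, ln, al, ← adcL_apply, Pi.smul_apply, PiLp.smul_apply, map_smul,
    map_add]

theorem addC_0 (W : m.Cn) (a : M → Fm ι m.A) : m.addC W ((0 : ℝ) • a) = W :=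
  funext₂ fun i x => by simp [Md.addC]

theorem cb_cmp (ha : G.F.Cb a) (i : ι) : G.F.Cb fun x => opL (a x i) :=
  Cb_clm opL (Cb_clm (PiLp.proj 2 (fun _ : ι => m.A) i) ha)

theorem lnI (hG : G.OK B) (hF : ∃ C, G.F.Tame C) (C : m.IsConn B G W) (hW : ∀ i, G.F.Cb (W i))
    (ha : G.F.Cb a) (hp : ∀ x, m.p1 B x (a x) = a x) : Ln G.F (m.adW W) (al a) :=
  ⟨hF, fun i => Cb_clm adcL (hW i), adW_skw C, hG.P ▸ (con_adW C).proj,
    fun i => Cb_clm adcL (cb_cmp ha i),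
    fun i x => adc_skw (g_skw ((Spn45.p1_iff.1 (hp x)).1 i)), fun i x => by
      simp only [al, ← adcL_apply, ← map_smul, ← map_sum, hG.P, (Spn45.p1_iff.1 (hp x)).2]⟩

theorem conn_s (H : m.OK I B) (C : m.IsConn B G W) (ha : Sm I a)
    (hp : ∀ x, m.p1 B x (a x) = a x) (s : ℝ) : m.IsConn B G (m.addC W (s • a)) :=
  Spn45.isConn_addC H C (Wrd81.sm_smul (contMDiff_const (c := s)) ha) fun x => by rw [Pi.smul_apply, map_smul, hp]

theorem cb_s (hW : ∀ i, G.F.Cb (W i)) (ha : G.F.Cb a) (s : ℝ) (i : ι) :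
    G.F.Cb (m.addC W (s • a) i) := by
  convert Cb_add (hW i) (Cb_smul (Cb_const s) (cb_cmp ha i)) using 1
  funext x
  simp [Md.addC]

theorem xiI {ξ : M → m.A} (H : m.OK I B) (R : Loc8.Rd G.F m W Ω ξ) (hΩ : IsClopen Ω)
    (hc : IsPreconnected Ω) : Xi G.F (m.adW W) Ω ξ :=
  ⟨hΩ, hc, Qa50.rd_sm R hΩ.1, fun x hx => Abel74.norm_sq H (R.mem x hx) (R.sq x hx), R.off,
    Qa50.rd_par R hΩ.1⟩

variable {r : ℕ} {c : Cfg M ι lam r}

/-- at `s = 0` the configuration does not move -/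
theorem vr_0 (c : Cfg M ι lam r) (a : M → Fm ι c.m.A) : vr c ((0 : ℝ) • a) 0 = c := by
  obtain ⟨m, W, Φ, z⟩ := c
  simp only [vr, addC_0, Pi.zero_apply, add_zero]

theorem la_0 (F : Fr I M ι) (a : M → Fm ι c.m.A) : (vr c ((0 : ℝ) • a) 0).la F = c.la F :=
  funext fun t => by
    cases t
    · rfl
    · exact congrArg (fun W => F.res (c.m.adW W)) (addC_0 c.W a)

theorem aw_0 (F : Fr I M ι) (a : M → Fm ι c.m.A) (f g h : M → ℝ) (l : List (La M)) :
    (vr c ((0 : ℝ) • a) 0).aw F ⟨.cv f g h, l⟩ = c.aw F ⟨.cv f g h, l⟩ := by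
  have e : (vr c ((0 : ℝ) • a) 0).sd F (.cv f g h) = c.sd F (.cv f g h) :=
    congrArg (fun W => F.res (c.m.adW W) (F.res (c.m.adW W) fun x =>
      ∑ s : ι × ι, (f x * F.D s.1 g x * F.D s.2 h x) • c.m.Fg F W x s)) (addC_0 c.W a)
  exact congrArg₂ (fun L u => wd L u l) (la_0 F a) e

/-- some curvature seed does not vanish on `Ω` -/
theorem seed_ne (hB : B.OK I) (hG : G.OK B) (hF : ∃ C, G.F.Tame C) (A : c.Adm B G)
    (hW : ∀ i, G.F.Cb (c.W i)) (hΩ : IsClopen Ω) (h0 : ∃ x ∈ Ω, c.m.Fg G.F c.W x ≠ 0) :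
    ∃ f g h, SdIn I Ω (.cv f g h) ∧ ∃ x ∈ Ω, c.sd G.F (.cv f g h) x ≠ 0 := by
  obtain ⟨r1, r2⟩ := Wrd81.rh_conn hG hF.choose_spec A.conn hW
  have P : Wrd81.Pc c B G Ω Ω := ⟨hB, hG, A.ok, A.conn, A.sm, fun x => by
    rw [← A.pos x, ← mul_apply_eq_comp, p_pp A.ok], r1, r2, hΩ, hΩ.2, by simp⟩
  by_contra! k
  obtain ⟨x, hx, h1⟩ := h0
  obtain ⟨σ, p⟩ := P.exists_ap (𝒮 := {s | ∃ f g h, SdIn I Ω (.cv f g h) ∧ s = c.sd G.F (.cv f g h)})
    (fun _ ⟨_, _, _, h, e⟩ => P.sm_sd _ ⟨_, h, e⟩) fun _ ⟨_, _, _, h, e⟩ => P.g_sd _ ⟨_, h, e⟩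
  refine h1 (PiLp.ext fun s => ?_)
  rw [← p.fix_Fg P (fun f g h k => ⟨f, g, h, k, rfl⟩) x hx s]
  refine p.orth _ contMDiff_const Ω hΩ.2 Subset.rfl (fun w hw y hy => ?_) x hx
  refine (congrArg _ (Wrd81.aw_ind (P := fun w => ∀ y ∈ Ω, w y = 0)
    (by rintro _ ⟨f, g, h, k1, rfl⟩; exact k f g h k1)
    (fun t u _ hu y hy => ?_) w hw y hy.1)).trans (inner_zero_right _)
  cases t
  · simp [Cfg.la, hu y hy]
  · exact r2.res_off hΩ.compl (fun z hz => hu z (not_not.1 hz)) y (not_not.2 hy)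

end Crest.Agent.X212.For74
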